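import Vale.Agent.P275.H490.Defs

/-!
P275 (helper252), row SH of helper490: the growth of the hook polynomial.
-/

set_option autoImplicit false

namespace Vale.Agent.P275.H252

open scoped BigOperators Topology
open Filter Vale.Agent.P275.H341 Vale.Agent.P275.H490

/-- `1 - x ^ n` tends to one. -/
theorem tend_pow {d : ℕ} (hd : 1 ≤ d) {n : ℕ} (hn : 1 ≤ n) :
    Tendsto (fun q : ℕ => 1 - (((q : ℂ) ^ d)⁻¹) ^ n) atTop (𝓝 1) := by
  have h0 : Tendsto (fun q : ℕ => ((q : ℂ))⁻¹) atTop (𝓝 0) :=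
    tendsto_inv_atTop_nhds_zero_nat (𝕜 := ℂ)
  have h1 : Tendsto (fun q : ℕ => (((q : ℂ) ^ d)⁻¹) ^ n) atTop (𝓝 0) := by
    have h2 := (h0.pow d).pow n
    rw [zero_pow (by omega), zero_pow (by omega)] at h2
    refine h2.congr fun q => ?_
    rw [inv_pow]
  simpa using (tendsto_const_nhds (x := (1 : ℂ))).sub h1

theorem sum_choose_two (k : ℕ) : ∑ c ∈ Finset.range k, Nat.choose c 2 = Nat.choose k 3 := by
  induction k with
  | zero => simp
  | succ k ih => rw [Finset.sum_range_succ, ih, Nat.choose_succ_succ k 2, add_comm]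

theorem sum_choose_fin (k : ℕ) : ∑ i : Fin k, Nat.choose (k - 1 - i) 2 = Nat.choose k 3 := by
  rw [← sum_choose_two k, ← Finset.sum_range_reflect]
  rw [← Fin.sum_univ_eq_sum_range (fun j => Nat.choose (k - 1 - j) 2) k]

/-- The exponents at one index. -/
theorem exps (l c : ℕ) : (l + c) * (l + c + 1) + 2 * Nat.choose c 2 =
    2 * (c * (l + c)) + l * (l + 1) := by
  have h : 2 * Nat.choose c 2 = c * (c - 1) := by
    rw [Nat.choose_two_right]
    exact Nat.mul_div_cancel' (Nat.even_mul_pred_self c).two_dvd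
  rw [h]
  rcases c with _ | c
  · ring
  · simp only [Nat.add_sub_cancel]; ring

theorem sum_succ_range (l : ℕ) : 2 * ∑ t ∈ Finset.range l, (t + 1) = l * (l + 1) := by
  induction l with
  | zero => simp
  | succ l ih => rw [Finset.sum_range_succ, mul_add, ih]; ring

theorem rowSH : RowSH := by
  intro k d e hd lam hlam he
  have hanti : ∀ i j : Fin k, i ≤ j → lam j ≤ lam i := (Finset.mem_filter.1 hlam).2
  set c : Fin k → ℕ := fun i => k - 1 - i with hc
  set l : Fin k → ℕ := fun i => lam i + (k - 1 - i) with hl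
  have hlt : ∀ i j : Fin k, i < j → l j < l i := by
    intro i j hij
    have h1 := hanti i j hij.le
    have h2 : (i : ℕ) < j := hij
    have h3 := j.2
    simp only [hl]
    omega
  -- the exponents
  set A : ℕ := ∑ i : Fin k, ∑ t ∈ Finset.range (l i), (t + 1) with hA
  set E : ℕ := ∑ i : Fin k, c i * l i with hE
  obtain ⟨S, hS⟩ : ∃ S, 2 * S = ∑ i, lam i * (lam i + 1) := by
    refine ⟨∑ i, ∑ t ∈ Finset.range (lam i), (t + 1), ?_⟩
    rw [Finset.mul_sum]
    exact Finset.sum_congr rfl fun i _ => sum_succ_range _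
  have heS : e = d * S := by
    have : 2 * e = 2 * (d * S) := by rw [he, ← hS]; ring
    omega
  have hexp : A + Nat.choose k 3 = E + S := by
    have h1 : 2 * A = ∑ i, l i * (l i + 1) := by
      rw [hA, Finset.mul_sum]
      exact Finset.sum_congr rfl fun i _ => sum_succ_range _
    have h2 : ∑ i, (l i * (l i + 1) + 2 * Nat.choose (c i) 2) =
        ∑ i, (2 * (c i * l i) + lam i * (lam i + 1)) :=
      Finset.sum_congr rfl fun i _ => exps (lam i) (c i)
    rw [Finset.sum_add_distrib, Finset.sum_add_distrib, ← Finset.mul_sum, ← Finset.mul_sum,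
      ← h1, ← hS, ← hE] at h2
    have h3 : ∑ i, Nat.choose (c i) 2 = Nat.choose k 3 := sum_choose_fin k
    rw [h3] at h2
    omega
  -- the limit
  have hnum : Tendsto (fun q : ℕ => ∏ i : Fin k, ∏ t ∈ Finset.range (l i),
      (1 - (((q : ℂ) ^ d)⁻¹) ^ (t + 1))) atTop (𝓝 1) := by
    have h1 : Tendsto (fun q : ℕ => ∏ i : Fin k, ∏ t ∈ Finset.range (l i),
        (1 - (((q : ℂ) ^ d)⁻¹) ^ (t + 1))) atTop
        (𝓝 (∏ i : Fin k, ∏ t ∈ Finset.range (l i), (1 : ℂ))) :=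
      tendsto_finsetProd _ fun i _ => tendsto_finsetProd _ fun t _ => tend_pow hd (by omega)
    simpa using h1
  have hden : Tendsto (fun q : ℕ => ∏ i : Fin k, ∏ j ∈ Finset.Ioi i,
      (1 - (((q : ℂ) ^ d)⁻¹) ^ (l i - l j))) atTop (𝓝 1) := by
    have h1 : Tendsto (fun q : ℕ => ∏ i : Fin k, ∏ j ∈ Finset.Ioi i,
        (1 - (((q : ℂ) ^ d)⁻¹) ^ (l i - l j))) atTop
        (𝓝 (∏ i : Fin k, ∏ j ∈ Finset.Ioi i, (1 : ℂ))) :=
      tendsto_finsetProd _ fun i _ => tendsto_finsetProd _ fun j hj => tend_pow hd (by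
        have := hlt i j (Finset.mem_Ioi.1 hj)
        omega)
    simpa using h1
  have hlim := hnum.div hden one_ne_zero
  rw [div_one] at hlim
  refine hlim.congr' ?_
  filter_upwards [eventually_ge_atTop 1] with q hq
  have hq0 : (q : ℂ) ≠ 0 := by
    have : q ≠ 0 := by omega
    exact_mod_cast this
  set Q : ℂ := (q : ℂ) ^ d with hQ
  have hQ0 : Q ≠ 0 := pow_ne_zero _ hq0
  have e1 : ∏ i : Fin k, ∏ t ∈ Finset.range (l i), (1 - Q⁻¹ ^ (t + 1)) =
      (∏ i : Fin k, ∏ t ∈ Finset.range (l i), (Q ^ (t + 1) - 1)) / Q ^ A := by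
    have h1 : Q ^ A = ∏ i : Fin k, ∏ t ∈ Finset.range (l i), Q ^ (t + 1) := by
      rw [hA, ← Finset.prod_pow_eq_pow_sum]
      exact Finset.prod_congr rfl fun i _ => (Finset.prod_pow_eq_pow_sum _ _ _).symm
    rw [h1, ← Finset.prod_div_distrib]
    refine Finset.prod_congr rfl fun i _ => ?_
    rw [← Finset.prod_div_distrib]
    refine Finset.prod_congr rfl fun t _ => ?_
    rw [sub_div, div_self (pow_ne_zero _ hQ0), inv_pow, one_div]
  have e2 : ∏ i : Fin k, ∏ j ∈ Finset.Ioi i, (1 - Q⁻¹ ^ (l i - l j)) =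
      (∏ i : Fin k, ∏ j ∈ Finset.Ioi i, (Q ^ l i - Q ^ l j)) / Q ^ E := by
    have h1 : Q ^ E = ∏ i : Fin k, ∏ j ∈ Finset.Ioi i, Q ^ l i := by
      rw [hE, ← Finset.prod_pow_eq_pow_sum]
      refine Finset.prod_congr rfl fun i _ => ?_
      rw [Finset.prod_const, Fin.card_Ioi, mul_comm (c i), pow_mul]
    rw [h1, ← Finset.prod_div_distrib]
    refine Finset.prod_congr rfl fun i _ => ?_
    rw [← Finset.prod_div_distrib]
    refine Finset.prod_congr rfl fun j hj => ?_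
    have hj' := hlt i j (Finset.mem_Ioi.1 hj)
    rw [sub_div, div_self (pow_ne_zero _ hQ0), inv_pow]
    congr 1
    rw [eq_div_iff (pow_ne_zero _ hQ0), inv_mul_eq_iff_eq_mul₀ (pow_ne_zero _ hQ0), ← pow_add]
    congr 1
    omega
  have e3 : (q : ℂ) ^ e = Q ^ S := by rw [heS, pow_mul]
  show (∏ i : Fin k, ∏ t ∈ Finset.range (l i), (1 - Q⁻¹ ^ (t + 1))) /
    (∏ i : Fin k, ∏ j ∈ Finset.Ioi i, (1 - Q⁻¹ ^ (l i - l j))) = hk Q lam / (q : ℂ) ^ e
  rw [e1, e2, e3]
  unfold hk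
  have hpow : Q ^ A * Q ^ Nat.choose k 3 = Q ^ E * Q ^ S := by rw [← pow_add, ← pow_add, hexp]
  have hA0 : Q ^ A ≠ 0 := pow_ne_zero _ hQ0
  have hE0 : Q ^ E ≠ 0 := pow_ne_zero _ hQ0
  have hS0 : Q ^ S ≠ 0 := pow_ne_zero _ hQ0
  set Pn : ℂ := ∏ i : Fin k, ∏ t ∈ Finset.range (l i), (Q ^ (t + 1) - 1) with hPn
  set Dn : ℂ := ∏ i : Fin k, ∏ j ∈ Finset.Ioi i, (Q ^ l i - Q ^ l j) with hDn
  show Pn / Q ^ A / (Dn / Q ^ E) = Q ^ Nat.choose k 3 * Pn / Dn / Q ^ S
  by_cases hD : Dn = 0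
  · rw [hD]; simp
  · rw [div_div_div_eq, div_div, div_eq_div_iff (mul_ne_zero hA0 hD) (mul_ne_zero hD hS0)]
    linear_combination (-Pn * Dn) * hpow

end Vale.Agent.P275.H252
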